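import Vale.Agent.P281.H399.TS.Glob
import Vale.Agent.P281.H702.TS.HF

/-!
# P281, project T-S, block G1 (helper399), 3: `GlobKStmt`
-/

open Set Filter Metric MeasureTheory Vale.Agent.P281 Vale.Agent.P281.H713 Vale.Agent.P272.K
open scoped Topology ContDiff Manifold ComplexConjugate ComplexOrder

set_option linter.unusedSectionVars false

noncomputable section

namespace Vale.Agent.P281.H399.TS

open Vale.Agent.P281.H64.TK Vale.Agent.P281.H64.TK.TS Vale.Agent.P281.H864.TS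
open Vale.Agent.P281.H603.TE (sub fsub fW idx rep Cmp kah_fW kfam_sub res ccs)

attribute [local instance] ccs

/-- the periods are holomorphic -/
theorem holP_of (holP : HolPStmt) (hcl : HolClStmt) {p n : ℕ} {E Γ : Type} [TopologicalSpace E]
    [T2Space E] [Group Γ] [Subsingleton Γ] [MulAction Γ E] [ContinuousConstSMul Γ E]
    {𝓕 : Fam p 2 E Γ} {T' : Set (Cm p)} (hT' : T' ⊆ 𝓕.T) (ho : IsOpen T')
    {s : Fin 𝓕.N → Cm p × Cm 2 → ℂ} (hs : HolFam 𝓕 T' s) {t₀ : Cm p} (ht₀ : t₀ ∈ 𝓕.T)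
    (M : Mark2 (𝓕.at t₀ ht₀) n) (M' : ∀ t (ht : t ∈ 𝓕.T), Mark2 (𝓕.at t ht) n)
    (hM' : ∀ t ht, IsMv M (M' t ht)) {P : Cm p → Fin n → ℂ}
    (hP : ∀ t (ht : t ∈ T'), P t = (M' t (hT' ht)).cl fun i z => sf2 (s i (t, z))) (k : Fin n)
    {t₁ : Cm p} (h₁ : t₁ ∈ T') : AnalyticAt ℂ (fun t => P t k) t₁ := by
  classical
  have c : ∀ t (ht : t ∈ T'), Cl2 (𝓕.at t (hT' ht)) fun i z => sf2 (s i (t, z)) :=
    fun t ht => hcl _ _ _ _ (hs.form t (hT' ht) ht)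
  have h1 := holP p E Γ 𝓕 T' hT' s t₁ h₁ n (M' t₁ (hT' h₁)) (fun t => if ht : t ∈ T' then
    pb2 (𝓕.at t₁ (hT' h₁)) (𝓕.at t (hT' ht)) id (fun i z => sf2 (s i (t, z)))
      else fun _ _ => 0) ho hs (fun t ht => by
        rw [dif_pos ht]
        exact ⟨pb2_cl2 continuous_id (htr_fam _ _) (c t ht), pb2_pull (c t ht).toF2On⟩) k
  refine h1.congr ?_
  filter_upwards [ho.mem_nhds h₁] with t ht
  rw [dif_pos ht, cl_mv (hM' t₁ _) (hM' t _) (c t ht), hP t ht]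

theorem kahCl : KahClStmt := by
  intro E Γ _ _ _ _ _ S w h
  exact Vale.Agent.P281.H702.TS.kah_cl2 h

theorem holCl : HolClStmt := by
  intro E Γ _ _ _ _ _ S s h
  exact Vale.Agent.P281.H702.TS.hol_cl2 h

/-- **G1** -/
theorem globK (I : Inputs) (mark : MarkStmt) (gra : GrauertStmt) (holP : HolPStmt)
    (kc : KConstStmt) (h20 : H20ConstStmt) (pm : PullMarkStmt) : GlobKStmt := by
  have kcl := kahCl
  have hcl := holCl
  intro p N Z Y _ _ _ _ _ _ _ _ f S w y₁ hf hP hconn hw hy₁ hN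
  have hAB := I.ab p 2 Z Y f S two_pos hf hP
  have hS := hP.isClosed
  -- the initial point
  obtain ⟨E₁, Γ₁, _, _, _, _, _, _, hfin₁, 𝓕₁, q₁, χ₁, t₁, ht₁, hM₁, hχ₁, hcard₁, h20₁⟩ := hN
  obtain ⟨W₁, hW₁, hK₁⟩ := I.w p 2 Z Y f w E₁ Γ₁ 𝓕₁ q₁ _ hf hM₁ hw
  obtain ⟨n, ⟨M₁⟩⟩ := mark 2 E₁ (⊥ : Subgroup Γ₁) (sub (𝓕₁.at _ ht₁) (⊥ : Subgroup Γ₁)) two_pos
  set B := Bm M₁ with hB
  set v := kv M₁ (fW (⊥ : Subgroup Γ₁) W₁ t₁) with hv
  have hP₁ : PPK f w N B v y₁ := ⟨E₁, Γ₁, inferInstance, inferInstance,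
    inferInstance, inferInstance, inferInstance, inferInstance, hfin₁, 𝓕₁, q₁, χ₁, t₁, ht₁, W₁,
    M₁, hM₁, hχ₁, hW₁, hK₁, hcard₁, h20₁, rfl, rfl⟩
  -- the key property
  have key : ∀ y₀ ∉ S, ∃ U ∈ 𝓝 y₀, ∀ y ∈ U, ∀ y' ∈ U, PPK f w N B v y → PPK f w N B v y' := by
    intro y₀ hy₀
    obtain ⟨E, Γ, _, _, _, _, _, _, 𝓕, q, hM, ht, -⟩ := hAB y₀ hy₀
    obtain ⟨W, hW, hK⟩ := I.w p 2 Z Y f w E Γ 𝓕 q _ hf hM hw
    set χ := chartAt (Cm p) y₀ with hχ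
    have hU : χ.source ∩ χ ⁻¹' 𝓕.T ∈ 𝓝 y₀ :=
      (χ.isOpen_inter_preimage 𝓕.isOpen).mem_nhds ⟨mem_chart_source _ _, ht⟩
    refine ⟨_, hU, fun y hy y' hy' h => ?_⟩
    have h1 := h.all I pm kcl hf hw hM hW hK hy.2 (χ.left_inv hy.1)
    obtain ⟨hfin, M, M', hc, h2⟩ := h1.move pm kc h20 kcl hK
    obtain ⟨-, h3, h4, h5⟩ := h2 (χ y') hy'.2
    exact ⟨E, Γ, inferInstance, inferInstance, inferInstance, inferInstance, inferInstance,
      inferInstance, hfin, 𝓕, q, χ, χ y', hy'.2, W, M' (χ y') hy'.2, hM, χ.left_inv hy'.1, hW, hK,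
      hc, h5, h3, h4⟩
  have hall : ∀ y ∉ S, PPK f w N B v y := by
    -- two open sets
    set A : Set Y := {y | y ∉ S ∧ PPK f w N B v y} with hA
    set A' : Set Y := {y | y ∉ S ∧ ¬ PPK f w N B v y} with hA'
    have hSo : IsOpen Sᶜ := hS.isOpen_compl
    have hAo : IsOpen A := by
      rw [isOpen_iff_mem_nhds]
      rintro y ⟨hy, hP⟩
      obtain ⟨U, hU, hUP⟩ := key y hy
      filter_upwards [hU, hSo.mem_nhds hy] with y' a b
      exact ⟨b, hUP y (mem_of_mem_nhds hU) y' a hP⟩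
    have hAo' : IsOpen A' := by
      rw [isOpen_iff_mem_nhds]
      rintro y ⟨hy, hP⟩
      obtain ⟨U, hU, hUP⟩ := key y hy
      filter_upwards [hU, hSo.mem_nhds hy] with y' a b
      exact ⟨b, fun h => hP (hUP y' a y (mem_of_mem_nhds hU) h)⟩
    intro y hy
    by_contra hcon
    obtain ⟨x, -, hx1, hx2⟩ := hconn A A' hAo hAo' (fun x hx => by
      by_cases h : PPK f w N B v x
      · exact Or.inl ⟨hx, h⟩
      · exact Or.inr ⟨hx, h⟩) ⟨y₁, hy₁, hy₁, hP₁⟩ ⟨y, hy, hy, hcon⟩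
    exact hx2.2 hx1.2
  refine ⟨n, B, v, fun y₀ hy₀ => ?_⟩
  obtain ⟨E, Γ, _, _, _, _, _, _, 𝓕, q, hM, ht, hT⟩ := hAB y₀ hy₀
  obtain ⟨W, hW, hK⟩ := I.w p 2 Z Y f w E Γ 𝓕 q _ hf hM hw
  have h1 := (hall y₀ hy₀).all I pm kcl hf hw hM hW hK ht
    ((chartAt (Cm p) y₀).left_inv (mem_chart_source _ _))
  obtain ⟨hfin, M, M', hc, h2⟩ := h1.move pm kc h20 kcl hK
  obtain ⟨T', s, hT', ho, ht', hs⟩ := gra p 2 E (⊥ : Subgroup Γ) (fsub 𝓕 (⊥ : Subgroup Γ)) two_pos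
    (fun t ht => (h2 t ht).2.2.2) _ ht
  classical
  set P : Cm p → Fin n → ℂ := fun t => if ht : t ∈ T' then
    (M' t (hT' ht)).cl (fun i z => sf2 (s i (t, z))) else 0 with hPdef
  have hPt : ∀ t (ht : t ∈ T'), P t = (M' t (hT' ht)).cl fun i z => sf2 (s i (t, z)) :=
    fun t ht => dif_pos ht
  exact ⟨{
    E := E
    Γ := Γ
    fin := hfin
    𝓕 := 𝓕
    q := q
    χ := chartAt (Cm p) y₀
    model := hM
    W := W
    pull := hW
    kfam := hK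
    card := hc
    T' := T'
    hT' := hT'
    isOpen' := ho
    one := fun t ht => (h2 t (hT' ht)).2.2.2
    s := s
    holS := hs
    M := fun t ht => M' t (hT' ht)
    form := fun t ht => (h2 t (hT' ht)).2.1
    kah := fun t ht => (h2 t (hT' ht)).2.2.1
    P := P
    per := hPt
    holP := fun k t₂ ht₂ => holP_of holP hcl hT' ho hs ht M M' (fun t ht => (h2 t ht).1) hPt k ht₂ },
    mem_chart_source _ _, ht', fun t ht => hT t (hT' ht)⟩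

end Vale.Agent.P281.H399.TS
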