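import Vale.Agent.P281.H399.TS.Desc
import Vale.Agent.P281.H125.TS.Poi
import Vale.Agent.P281.H64.TS.Spec

/-!
# P281, project T-S, block C4 (helper399), 2: the image of the Laplacian is dense
-/

open Set Filter Metric MeasureTheory Vale.Agent.P272.K
open scoped Topology ContDiff ComplexConjugate ComplexOrder

noncomputable section

namespace Vale.Agent.P281.H399.TS

open Vale.Agent.P281.H64.TK Vale.Agent.P281.H64.TK.TS Vale.Agent.P284.H894 Vale.Agent.P284.H894.V
  Vale.Agent.P281.H125.KH.Sh Vale.Agent.P281.H125.L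
open Vale.Agent.P281.H511.TK (IsDens int_piece)
open Vale.Agent.P284.H639.V (smooth_lap smooth_vol lap_congr)

variable {d : ℕ} {E Γ : Type} [TopologicalSpace E] [Group Γ] [MulAction Γ E]
  {S : Sheets d E Γ} {w : Fin S.N → Cm d → Matrix (Fin d) (Fin d) ℂ}

/-- transformation of the volume and of the Laplacian -/
theorem dens_aux [Subsingleton Γ] (hw : Kah S w) {L : E → ℝ}
    (hL : ∀ i, ∀ z ∈ ball (0 : Cm d) 3, ContDiffAt ℝ ∞ (fun z => L (S.σ i z)) z)
    (i j : Fin S.N) {z z' : Cm d} (hz : z ∈ ball (0 : Cm d) 3) (hz' : z' ∈ ball (0 : Cm d) 3)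
    {γ : Γ} {θ : Cm d → Cm d} (hθ : AnalyticAt ℂ θ z) (hθz : θ z = z')
    (hev : ∀ᶠ u in 𝓝 z, S.σ i u = γ • S.σ j (θ u)) :
    lap (w i) (fun z => L (S.σ i z)) z = lap (w j) (fun z => L (S.σ j z)) z' ∧
      vol (w i) z = ‖(H64.TK.jac θ z).det‖ ^ 2 * vol (w j) z' := by
  have hd : DifferentiableAt ℂ θ z := hθ.differentiableAt
  have h0 := hw.change i j z hz z' hz' γ θ hθ hθz hev
  have e1 : ∀ᶠ y in 𝓝 z, L (S.σ i y) = L (S.σ j (θ y)) := by
    filter_upwards [hev] with y hy
    rw [hy, Subsingleton.elim γ 1, one_smul]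
  have h1 := Vale.Agent.P284.H730.V.vpStmt.trans (w i) (w j) (fun z => L (S.σ i z))
    (fun z => L (S.σ i z)) (fun z => L (S.σ j z)) (fun z => L (S.σ j z)) θ z
    (hθ.eventually_analyticAt.mono fun y hy => hy.differentiableAt) (hw.posDef i z hz)
    (by rw [hθz]; exact hw.posDef j z' hz') (by rw [jac_mat hd, hθz]; exact h0)
    (by rw [hθz]; exact hL j z' hz') (by rw [hθz]; exact hL j z' hz') e1 e1
  refine ⟨by rw [h1.1, hθz], ?_⟩
  rw [h1.2.2.2, det_jac, hθz]
  ring

theorem det_eq (hw : Kah S w) (i : Fin S.N) {z : Cm d} (hz : z ∈ ball (0 : Cm d) 3) :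
    (w i z).det = ((vol (w i) z : ℝ) : ℂ) := by
  have h1 : (w i z).det.im = 0 := (Complex.pos_iff.1 (hw.posDef i z hz).det_pos).2.symm
  exact Complex.ext (by simp [vol]) (by simp [h1])

/-- the trace is real -/
theorem trace_eq (hw : Kah S w) (i : Fin S.N) {z : Cm d} (hz : z ∈ ball (0 : Cm d) 3)
    {u : Cm d → ℝ} (hu : ContDiffAt ℝ ∞ u z) :
    ((w i z)⁻¹ * cHess u z).trace = ((lap (w i) u z : ℝ) : ℂ) := by
  have h1 : (cHess u z).IsHermitian := cHess_isHermitian (hu.of_le (by exact WithTop.coe_le_coe.2 le_top))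
  have h2 : (w i z).IsHermitian := (hw.posDef i z hz).isHermitian
  have h3 : star ((w i z)⁻¹ * cHess u z).trace = ((w i z)⁻¹ * cHess u z).trace := by
    rw [← Matrix.trace_conjTranspose, Matrix.conjTranspose_mul, h1.eq, h2.inv.eq, Matrix.trace_mul_comm]
  have h4 := congrArg Complex.im h3
  have h5 : ((w i z)⁻¹ * cHess u z).trace.im = 0 := by
    have h6 : (star ((w i z)⁻¹ * cHess u z).trace).im = -((w i z)⁻¹ * cHess u z).trace.im := rfl
    rw [h6] at h4
    linarith
  exact Complex.ext (by simp [lap]) (by simp [h5])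

/-- the complex integral of a real density -/
theorem int_real [T2Space E] [ContinuousConstSMul Γ E] {D : Fin S.N → Cm d → ℂ}
    {F : Fin S.N → Cm d → ℝ} (h : ∀ i, ∀ z ∈ ball (0 : Cm d) 3, D i z = ((F i z : ℝ) : ℂ)) :
    S.int D = ((∑ i, ∫ z in S.P i, F i z : ℝ) : ℂ) := by
  unfold Sheets.int
  rw [Complex.ofReal_sum]
  refine Finset.sum_congr rfl fun i _ => ?_
  rw [← integral_complex_ofReal]
  exact setIntegral_congr_fun (H864.K.meas_P S i) fun z hz => h i z (H864.K.P_subset3 S i hz)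

/-- **C4** -/
theorem lapStmt : LapStmt := by
  intro d E Γ _ _ _ _ _ _ _ S w g hd hw hg h0 ε hε
  rcases isEmpty_or_nonempty E with hE | hE
  · have hN : IsEmpty (Fin S.N) := ⟨fun i => hE.elim (S.σ i 0)⟩
    refine ⟨fun _ => 0, fun i => hN.elim i, ?_⟩
    have h1 : (S.int fun i z => ((‖((w i z)⁻¹ * cHess (fun u => (fun _ : E => (0 : ℝ)) (S.σ i u)) z).trace
        - g (S.σ i z)‖ ^ 2 : ℝ) : ℂ) * (w i z).det) = 0 := by
      unfold Sheets.int
      exact Finset.sum_eq_zero fun i _ => hN.elim i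
    rw [h1]
    exact hε
  have hcE : ConnectedSpace E := { toPreconnectedSpace := inferInstance, toNonempty := hE }
  obtain ⟨R⟩ := exists_ctr d
  obtain ⟨P⟩ := Vale.Agent.P284.H35.W.exists_PU (mk S R)
  obtain ⟨K, hK⟩ := exists_KM' hw R
  have hgs : ∀ i, ∀ z ∈ ball (0 : Cm d) 3, ContDiffAt ℝ ∞ (fun z => g (S.σ i z)) z := by
    intro i z hz
    have h1 : ContDiffAt ℝ ∞ (fun u => (g (S.σ i u) : ℂ)) z := hg i z hz (mem_univ _)
    have h2 : ContDiffAt ℝ ∞ (fun u => Complex.reCLM (g (S.σ i u) : ℂ)) z :=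
      Complex.reCLM.contDiff.contDiffAt.comp z h1
    exact h2
  -- the function on the pieces
  set h : Γ → (mk S R).I → Cm d → ℝ := fun _ a => ((mk S R).Ω a).indicator fun z => g (S.σ a.1 z)
    with hh
  have hmem : ∀ (a : Idx S R) {z : Cm d}, z ∈ ball (cen a) (4 * (1 / 4)) → z ∈ (mk S R).Ω a :=
    fun a z hz => hz
  have hht : IsTst (mk S R) h := by
    refine ⟨fun γ a z hz => ?_, fun γ a b z hz => ?_, Set.toFinite _,
      fun γ a z hz => indicator_of_notMem hz _⟩
    · refine (hgs a.1 z (ball3 hz)).congr_of_eventuallyEq ?_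
      filter_upwards [(show IsOpen ((mk S R).Ω a) from isOpen_ball).mem_nhds hz] with y hy
      exact indicator_of_mem hy _
    · have h1 : z ∈ Ov a b := hz
      show ((mk S R).Ω a).indicator _ z = ((mk S R).Ω b).indicator _ (τ S a.1 b.1 z)
      rw [indicator_of_mem (hmem a h1.1), indicator_of_mem (hmem b h1.2.2), sig_eq h1.2.1]
  have hvol : ∀ i, ContinuousOn (vol (w i)) (ball 0 3) := fun i z hz =>
    (smooth_vol (kah_ku hw i) hz).continuousAt.continuousWithinAt
  have hInt0 : Vale.Agent.P284.H894.V.Int P K h = 0 := by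
    refine (int_eq P K (G := h) (D := fun j z => g (S.σ j z) * vol (w j) z)
      (fun j => ContinuousOn.mul (fun z hz => (hgs j z hz).continuousAt.continuousWithinAt) (hvol j))
      ?_ ?_).trans ?_
    rotate_left 2
    · have h1 := int_real (S := S) (D := fun i z => (g (S.σ i z) : ℂ) * (w i z).det)
        (F := fun i z => g (S.σ i z) * vol (w i) z) fun i z hz => by
          rw [det_eq hw i hz, Complex.ofReal_mul]
      rw [h0] at h1
      exact_mod_cast h1.symm
    · intro i j z hz z' hz' γ θ h1 h2 h3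
      have h4 := dens_aux hw hgs i j hz hz' h1 h2 h3
      have h5 := h3.self_of_nhds
      rw [h2, Subsingleton.elim γ 1, one_smul] at h5
      dsimp only
      rw [h4.2, h5]
      ring
    · intro γ a z hz
      rw [hK a]
      show ((mk S R).Ω a).indicator _ z * _ = _
      rw [indicator_of_mem (hmem a (b34 a hz))]
  obtain ⟨u, hu, hlt⟩ := Vale.Agent.P281.H125.TS.poisson P K hht hInt0 hε
  -- the function on `E`
  have hcu : ∀ a b, ∀ z ∈ Ov a b, u 1 a z = u 1 b (τ S a.1 b.1 z) := by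
    intro a b z hz
    have h1 := hu.compat 1 a b z hz
    rw [Subsingleton.elim (1 * (mk S R).κ a b z) 1] at h1
    exact h1
  set φ : E → ℝ := dn (R := R) (u 1) with hφ
  have hφs : ∀ i, ∀ z ∈ ball (0 : Cm d) 3, ContDiffAt ℝ ∞ (fun z => φ (S.σ i z)) z := fun i z hz =>
    dn_smooth hcu (fun a z hz => hu.smooth 1 a z hz) i hz
  refine ⟨φ, fun i z hz _ => Complex.ofRealCLM.contDiff.contDiffAt.comp z (hφs i z hz), ?_⟩
  have e1 := int_real (S := S) (D := fun i z => ((‖((w i z)⁻¹ * cHess (fun u => φ (S.σ i u)) z).trace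
        - g (S.σ i z)‖ ^ 2 : ℝ) : ℂ) * (w i z).det)
    (F := fun i z => (g (S.σ i z) - lap (w i) (fun u => φ (S.σ i u)) z) ^ 2 * vol (w i) z)
    fun i z hz => by
      rw [det_eq hw i hz, trace_eq hw i hz (hφs i z hz), ← Complex.ofReal_sub, Complex.norm_real,
        Real.norm_eq_abs, sq_abs, ← Complex.ofReal_mul]
      congr 1
      ring
  rw [e1, Complex.ofReal_re]
  refine lt_of_eq_of_lt ?_ hlt
  refine (int_eq P K (D := fun i z => (g (S.σ i z) - lap (w i) (fun u => φ (S.σ i u)) z) ^ 2 *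
    vol (w i) z) (fun j => ContinuousOn.mul (ContinuousOn.pow (ContinuousOn.sub
      (fun z hz => (hgs j z hz).continuousAt.continuousWithinAt) fun z hz =>
        (smooth_lap (kah_ku hw j) hz (hφs j z hz)).continuousAt.continuousWithinAt) 2) (hvol j))
    ?_ ?_).symm
  · intro i j z hz z' hz' γ θ h1 h2 h3
    have h4 := dens_aux hw hφs i j hz hz' h1 h2 h3
    have h5 := h3.self_of_nhds
    rw [h2, Subsingleton.elim γ 1, one_smul] at h5
    dsimp only
    rw [h4.1, h4.2, h5]
    ring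
  · intro γ a z hz
    have hz' : z ∈ (mk S R).Ω a := hmem a (b34 a hz)
    have h6 : (fun y => φ (S.σ a.1 y)) =ᶠ[𝓝 z] u γ a := by
      filter_upwards [(show IsOpen ((mk S R).Ω a) from isOpen_ball).mem_nhds hz'] with y hy
      rw [Subsingleton.elim γ 1]
      exact dn_eq hcu hy
    have h7 : Lap K u γ a z = lap (w a.1) (fun y => φ (S.σ a.1 y)) z := by
      show ((mk S R).Ω a).indicator _ z = _
      rw [indicator_of_mem hz', hK a]
      exact (lap_congr h6).symm
    have h8 : h γ a z = g (S.σ a.1 z) := indicator_of_mem hz' _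
    rw [h7, h8, hK a]

end Vale.Agent.P281.H399.TS
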