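import Vale.Agent.P281.H125.KH.MkKM
import Vale.Agent.P281.H125.L.Green
import Vale.Agent.P284.H35.ExPU

/-!
# P281, project T-S, block C4 (helper399), 1: from the pieces `Coc` back to the sheets

`E` is compact (`Γ` is trivial). Functions on the pieces descend to `E`; the integral of
`P284/H894/V/Spec.lean` (partition of unity) is the integral of the sheets.
-/

open Set Filter Metric MeasureTheory Vale.Agent.P272.K
open scoped Topology ContDiff ComplexConjugate ComplexOrder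

noncomputable section

namespace Vale.Agent.P281.H399.TS

open Vale.Agent.P281.H64.TK Vale.Agent.P284.H894 Vale.Agent.P284.H894.V
  Vale.Agent.P281.H125.KH.Sh
open Vale.Agent.P281.H511.TK (IsDens int_piece)

variable {d : ℕ} {E Γ : Type} [TopologicalSpace E] [Group Γ] [MulAction Γ E]
  {S : Sheets d E Γ} {R : Ctr d}

theorem b34 (a : Idx S R) : ball (cen a) (3 * (1 / 4)) ⊆ ball (cen a) (4 * (1 / 4)) :=
  ball_subset_ball (by norm_num)

section desc

/-- the chosen piece through a point -/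
theorem exists_pc [Subsingleton Γ] (S : Sheets d E Γ) (R : Ctr d) (e : E) :
    ∃ q : Idx S R × Cm d, q.2 ∈ ball (cen q.1) (3 * (1 / 4)) ∧ S.σ q.1.1 q.2 = e := by
  obtain ⟨γ, a, z, hz, h⟩ := exists_piece (S := S) R e
  rw [Subsingleton.elim γ 1, one_smul] at h
  exact ⟨(a, z), hz, h⟩

/-- the function on `E` of a family of functions on the pieces -/
def dn [Subsingleton Γ] (u : Idx S R → Cm d → ℝ) (e : E) : ℝ :=
  u (exists_pc S R e).choose.1 (exists_pc S R e).choose.2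

variable [Subsingleton Γ]

theorem sig_eq {i j : Fin S.N} {z : Cm d} (h : z ∈ U S i j) : S.σ i z = S.σ j (τ S i j z) := by
  have h1 := sigma_eq h
  rwa [Subsingleton.elim (κ S i j z) 1, one_smul] at h1

theorem tau_of {i j : Fin S.N} {z w : Cm d} (hz : z ∈ ball (0 : Cm d) 3)
    (hw : w ∈ ball (0 : Cm d) 3) (h : S.σ i z = S.σ j w) : z ∈ U S i j ∧ τ S i j z = w := by
  have h1 : S.σ i z = (1 : Γ) • S.σ j w := by rw [one_smul]; exact h
  exact ⟨mem_U hz hw h1, (tau_unique hz hw h1).1⟩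

theorem ov_of {a b : Idx S R} {z w : Cm d} (hz : z ∈ ball (cen a) (4 * (1 / 4)))
    (hw : w ∈ ball (cen b) (4 * (1 / 4))) (h : S.σ a.1 z = S.σ b.1 w) :
    z ∈ Ov a b ∧ τ S a.1 b.1 z = w := by
  obtain ⟨h1, h2⟩ := tau_of (ball3 hz) (ball3 hw) h
  exact ⟨⟨hz, h1, by rw [h2]; exact hw⟩, h2⟩

theorem dn_eq {u : Idx S R → Cm d → ℝ}
    (hu : ∀ a b, ∀ z ∈ Ov a b, u a z = u b (τ S a.1 b.1 z)) {a : Idx S R} {z : Cm d}
    (hz : z ∈ ball (cen a) (4 * (1 / 4))) : dn u (S.σ a.1 z) = u a z := by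
  obtain ⟨h1, h2⟩ := (exists_pc S R (S.σ a.1 z)).choose_spec
  set q := (exists_pc S R (S.σ a.1 z)).choose with hq
  obtain ⟨h3, h4⟩ := ov_of (b34 _ h1) hz h2
  show u q.1 q.2 = u a z
  rw [hu _ _ _ h3, h4]

theorem dn_smooth {u : Idx S R → Cm d → ℝ}
    (hu : ∀ a b, ∀ z ∈ Ov a b, u a z = u b (τ S a.1 b.1 z))
    (hs : ∀ a, ∀ z ∈ ball (cen a) (4 * (1 / 4)), ContDiffAt ℝ ∞ (u a) z) (i : Fin S.N) {z : Cm d}
    (hz : z ∈ ball (0 : Cm d) 3) : ContDiffAt ℝ ∞ (fun z => dn u (S.σ i z)) z := by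
  obtain ⟨⟨a, w⟩, h1, h2⟩ := exists_pc S R (S.σ i z)
  have h1' : w ∈ ball (cen a) (4 * (1 / 4)) := b34 _ h1
  obtain ⟨h3, h4⟩ := tau_of hz (ball3 h1') h2.symm
  have h5 := analyticAt_tau h3
  have h6 : ∀ᶠ y in 𝓝 z, τ S i a.1 y ∈ ball (cen a) (4 * (1 / 4)) :=
    h5.continuousAt.eventually (isOpen_ball.mem_nhds (by rw [h4]; exact h1'))
  have h7 : (fun z => dn u (S.σ i z)) =ᶠ[𝓝 z] fun y => u a (τ S i a.1 y) := by
    filter_upwards [h6, isOpen_U.mem_nhds h3] with y hy hU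
    rw [sig_eq hU]
    exact dn_eq hu hy
  refine ContDiffAt.congr_of_eventuallyEq ?_ h7
  refine ContDiffAt.comp _ ?_ (h5.contDiffAt.restrict_scalars ℝ)
  rw [h4]
  exact hs a w h1'

end desc

variable [ContinuousConstSMul Γ E] [ConnectedSpace E]

/-- the function number `a` of the partition of unity, on the pieces -/
def chi (P : PU (mk S R)) (a : Idx S R) : Idx S R → Cm d → ℝ := P.χ a

theorem chi_support [Subsingleton Γ] (P : PU (mk S R)) (a : Idx S R) {e : E}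
    (h : dn (chi P a) e ≠ 0) : ∃ z ∈ P.K a, S.σ a.1 z = e := by
  obtain ⟨h1, h2⟩ := (exists_pc S R e).choose_spec
  set q := (exists_pc S R e).choose with hq
  have h3 : P.χ a q.1 q.2 ≠ 0 := h
  obtain ⟨h4, h5⟩ := P.supp a q.1 q.2 (b34 q.1 h1) h3
  have h6 : q.2 ∈ Ov q.1 a := h4
  refine ⟨τ S q.1.1 a.1 q.2, h5, ?_⟩
  rw [← sig_eq h6.2.1, h2]

theorem chi_sum [Subsingleton Γ] (P : PU (mk S R)) (e : E) :
    ∑ a : Idx S R, dn (chi P a) e = 1 := by
  obtain ⟨h1, h2⟩ := (exists_pc S R e).choose_spec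
  exact P.sum_one (exists_pc S R e).choose.1 (exists_pc S R e).choose.2 (b34 _ h1)

/-- **the two integrals are the same** -/
theorem int_eq [Subsingleton Γ] (P : PU (mk S R)) (K : KM (mk S R))
    {D : Fin S.N → Cm d → ℝ} (hD : ∀ j, ContinuousOn (D j) (ball 0 3)) (hd : IsDens S D)
    {G : Γ → Idx S R → Cm d → ℝ}
    (hG : ∀ γ a, ∀ z ∈ ball (cen a) (3 * (1 / 4)), G γ a z * vol (K.w a) z = D a.1 z) :
    Vale.Agent.P284.H894.V.Int P K G = ∑ j, ∫ z in S.P j, D j z := by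
  classical
  have hfin : Fintype Γ := Fintype.ofFinite Γ
  have e0 : Vale.Agent.P284.H894.V.Int P K G = ∑ a : Idx S R, ∫ z in ball (cen a) (3 * (1 / 4)),
      P.χ a a z * G 1 a z * vol (K.w a) z := by
    unfold Vale.Agent.P284.H894.V.Int
    rw [tsum_fintype, Fintype.sum_subsingleton _ (1 : Γ)]
    rfl
  have hX : ∀ a : Idx S R, ∀ b b', ∀ z ∈ Ov b b', chi P a b z = chi P a b' (τ S b.1 b'.1 z) :=
    fun a b b' z hz => P.compat a b b' z hz
  have hXs : ∀ (a : Idx S R) (j : Fin S.N) {z : Cm d}, z ∈ ball (0 : Cm d) 3 →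
      ContDiffAt ℝ ∞ (fun z => dn (chi P a) (S.σ j z)) z := fun a j z hz =>
    dn_smooth (hX a) (fun b z hz => P.smooth a b z hz) j hz
  have hDa : ∀ (a : Idx S R) (j : Fin S.N),
      ContinuousOn (fun z => dn (chi P a) (S.σ j z) * D j z) (ball 0 3) := fun a j =>
    ContinuousOn.mul (fun z hz => (hXs a j hz).continuousAt.continuousWithinAt) (hD j)
  have hda : ∀ a : Idx S R, IsDens S fun j z => dn (chi P a) (S.σ j z) * D j z := by
    intro a i j z hz w hw γ θ h1 h2 h3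
    have h4 := h3.self_of_nhds
    rw [h2, Subsingleton.elim γ 1, one_smul] at h4
    have h5 := hd i j z hz w hw γ θ h1 h2 h3
    dsimp only
    rw [h4, h5]
    ring
  have hsub : ∀ a : Idx S R, ball (cen a) (3 * (1 / 4)) ⊆ closedBall (0 : Cm d) 2 := fun a z hz =>
    ball_sub (r := 3 * (1 / 4)) (by norm_num) (ball_subset_closedBall hz)
  have h23 : closedBall (0 : Cm d) 2 ⊆ ball 0 3 := closedBall_subset_ball (by norm_num)
  have e1 : ∀ a : Idx S R, ∫ z in ball (cen a) (3 * (1 / 4)),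
      P.χ a a z * G 1 a z * vol (K.w a) z = ∑ j, ∫ z in S.P j, dn (chi P a) (S.σ j z) * D j z := by
    intro a
    rw [← int_piece S (hDa a) (hda a) a.1 ?_]
    · have h1 : ∫ z in ball (cen a) (3 * (1 / 4)), P.χ a a z * G 1 a z * vol (K.w a) z =
          ∫ z in ball (cen a) (3 * (1 / 4)), dn (chi P a) (S.σ a.1 z) * D a.1 z := by
        refine setIntegral_congr_fun measurableSet_ball fun z hz => ?_
        have h2 : dn (chi P a) (S.σ a.1 z) = P.χ a a z := dn_eq (hX a) (b34 a hz)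
        have h3 := hG 1 a z hz
        show P.χ a a z * G 1 a z * vol (K.w a) z = dn (chi P a) (S.σ a.1 z) * D a.1 z
        rw [h2, ← h3, mul_assoc]
      rw [h1]
      refine (setIntegral_eq_of_subset_of_forall_sdiff_eq_zero measurableSet_closedBall (hsub a)
        ?_).symm
      rintro z ⟨hz, hz'⟩
      by_contra hne
      obtain ⟨w, hw, h3⟩ := chi_support P a (left_ne_zero_of_mul hne)
      have hw' : w ∈ ball (cen a) (3 * (1 / 4)) := P.K_sub a hw
      have h4 := (tau_of (h23 (hsub a hw')) (h23 hz) h3).2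
      rw [(tau_self (h23 (hsub a hw'))).1] at h4
      exact hz' (h4 ▸ hw')
    · intro j z hz hne
      obtain ⟨w, hw, h3⟩ := chi_support P a (left_ne_zero_of_mul hne)
      refine ⟨1, w, mem_closedBall_zero_iff.1 (hsub a (P.K_sub a hw)), ?_⟩
      rw [one_smul]
      exact h3
  rw [e0, Finset.sum_congr rfl fun a _ => e1 a, Finset.sum_comm]
  refine Finset.sum_congr rfl fun j _ => ?_
  rw [← integral_finsetSum _ fun a _ => (H864.K.integrableOn_P S j (hDa a j) : IntegrableOn _ _ _)]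
  refine setIntegral_congr_fun (H864.K.meas_P S j) fun z _ => ?_
  show ∑ a : Idx S R, dn (chi P a) (S.σ j z) * D j z = D j z
  rw [← Finset.sum_mul, chi_sum, one_mul]

/-- the metric on the pieces -/
theorem exists_KM' {w : Fin S.N → Cm d → Matrix (Fin d) (Fin d) ℂ} (hw : Kah S w) (R : Ctr d) :
    ∃ K : KM (mk S R), ∀ a : Idx S R, K.w a = w a.1 := by
  have hd : ∀ i, ∀ z ∈ ball (0 : Cm d) 3, ∀ j k, ContDiffAt ℝ ∞ (fun y => w i y j k) z :=
    fun i z hz j k => (hw.smooth i j k).contDiffAt (isOpen_ball.mem_nhds hz)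
  have hsub : ∀ z ∈ closedBall (0 : Cm d) 2, z ∈ ball (0 : Cm d) 3 := fun z hz =>
    mem_ball_zero_iff.2 (by linarith [mem_closedBall_zero_iff.1 hz])
  have h0 : ∀ i : Fin S.N, ∃ B : ℝ, 0 < B ∧ ∀ z ∈ closedBall (0 : Cm d) 2,
      (∀ ξ : Cm d, ∑ j, ‖ξ j‖ ^ 2 ≤ B * (quad (w i z) ξ).re) ∧
      (∀ ξ : Cm d, (quad (w i z) ξ).re ≤ B * ∑ j, ‖ξ j‖ ^ 2) ∧ vol (w i) z ≤ B ∧
      1 ≤ B * vol (w i) z := fun i =>
    exists_bds (isCompact_closedBall _ _) (w i) (fun z hz => hd i z (hsub z hz))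
      fun z hz => hw.posDef i z (hsub z hz)
  choose B hB hB' using h0
  obtain ⟨x⟩ : Nonempty E := inferInstance
  obtain ⟨-, i₀, -, -, -⟩ := S.cover x
  have : Nonempty (Fin S.N) := ⟨i₀⟩
  obtain ⟨i0, hi0⟩ := Finite.exists_max B
  have h : ∀ i, ∀ z ∈ closedBall (0 : Cm d) 2,
      (∀ ξ : Cm d, ∑ j, ‖ξ j‖ ^ 2 ≤ B i0 * (quad (w i z) ξ).re) ∧
      (∀ ξ : Cm d, (quad (w i z) ξ).re ≤ B i0 * ∑ j, ‖ξ j‖ ^ 2) ∧ vol (w i) z ≤ B i0 ∧
      1 ≤ B i0 * vol (w i) z := by
    intro i z hz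
    obtain ⟨h1, h2, h3, h4⟩ := hB' i z hz
    have hpos := hw.posDef i z (hsub z hz)
    refine ⟨fun ξ => (h1 ξ).trans (mul_le_mul_of_nonneg_right (hi0 i) ?_),
      fun ξ => (h2 ξ).trans (mul_le_mul_of_nonneg_right (hi0 i) ?_), h3.trans (hi0 i),
      h4.trans (mul_le_mul_of_nonneg_right (hi0 i) ?_)⟩
    · exact quad_nonneg hpos.posSemidef ξ
    · exact Finset.sum_nonneg fun i _ => sq_nonneg _
    · exact (Complex.pos_iff.1 hpos.det_pos).1.le
  have hΩ : ∀ a : Idx S R, ∀ z ∈ ball (cen a) (4 * (1 / 4)), z ∈ closedBall (0 : Cm d) 2 :=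
    fun a z hz => ball_sub (a := a) (r := 4 * (1 / 4)) (by norm_num) (ball_subset_closedBall hz)
  have hBp := hB i0
  exact ⟨{
    w := fun a => w a.1
    ku := fun a =>
      { isOpen := isOpen_ball
        smooth := fun z hz => hd a.1 z (hsub z (hΩ a z hz))
        pos := fun z hz => hw.posDef a.1 z (hsub z (hΩ a z hz))
        closed := fun z hz i j k => hw.closed a.1 z (hsub z (hΩ a z hz)) i j k }
    change := fun a b z hz => by
      have hU : z ∈ U S a.1 b.1 := hz.2.1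
      have h1 := hw.change a.1 b.1 z hU.1 _ (tau_mem hU) (κ S a.1 b.1 z) (τ S a.1 b.1)
        (analyticAt_tau hU) rfl (by
          filter_upwards [isOpen_U.mem_nhds hU, kappa_local hU] with u hu hk
          rw [← hk]
          exact sigma_eq hu)
      have h2 : Vale.Agent.P284.H894.V.jac (mk S R) a b z = H64.TK.jac (τ S a.1 b.1) z := jac_eq hU
      rw [h2]
      exact h1
    lam := (B i0)⁻¹
    lam_pos := inv_pos.2 hBp
    Lam := B i0
    low := fun a z hz v => by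
      rw [sum_eq_quad, inv_mul_le_iff₀ hBp]
      exact (h a.1 z (hΩ a z hz)).1 v
    up := fun a z hz v => by
      rw [sum_eq_quad]
      exact (h a.1 z (hΩ a z hz)).2.1 v
    vol_up := fun a z hz => (h a.1 z (hΩ a z hz)).2.2.1
    vol_low := fun a z hz => by
      rw [inv_le_iff_one_le_mul₀' hBp]
      exact (h a.1 z (hΩ a z hz)).2.2.2 }, fun _ => rfl⟩

end Vale.Agent.P281.H399.TS
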