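import Vale.Agent.P281.H399.TS.Hol
import Vale.Agent.P281.H603.TE.Loc
import Vale.Agent.P281.H64.TS.Spec2

/-!
# P281, project T-S, block G1 (helper399), 2: the local data everywhere
-/

open Set Filter Metric MeasureTheory Vale.Agent.P281 Vale.Agent.P281.H713 Vale.Agent.P272.K
open scoped Topology ContDiff Manifold ComplexConjugate ComplexOrder

set_option linter.unusedSectionVars false

noncomputable section

namespace Vale.Agent.P281.H399.TS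

open Vale.Agent.P281.H64.TK Vale.Agent.P281.H64.TK.TS Vale.Agent.P281.H864.TS
open Vale.Agent.P281.H603.TE (sub fsub fW idx rep Cmp kah_fW kfam_sub res ccs)
open Vale.Agent.P281.H864.K (holCompat_compat holCompat_refl)

attribute [local instance] ccs

/-! ### Pull-backs of 2-forms -/

section pull
variable {d : ℕ} {E Γ E' Γ' E'' Γ'' : Type} [TopologicalSpace E] [Group Γ] [MulAction Γ E]
  [TopologicalSpace E'] [Group Γ'] [MulAction Γ' E'] [TopologicalSpace E''] [Group Γ'']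
  [MulAction Γ'' E''] {S : Sheets d E Γ} {S' : Sheets d E' Γ'} {S'' : Sheets d E'' Γ''}

theorem pull2_trans [Subsingleton Γ'] {τ : E → E'} {τ' : E' → E''} (H : HasTr S S' τ)
    (H' : HasTr S' S'' τ') {α : Fin S.N → Cm d → L2 d} {α' : Fin S'.N → Cm d → L2 d}
    {α'' : Fin S''.N → Cm d → L2 d} (hP : Pull2 S S' τ α α') (hP' : Pull2 S' S'' τ' α' α'') :
    Pull2 S S'' (τ' ∘ τ) α α'' := by
  intro i k z hz z'' hz'' ψ hψ u v
  obtain ⟨j, z', hz', φ, hφ, e⟩ := exTr H i hz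
  have e1 : τ' (S'.σ j z') = S''.σ k z'' := by
    rw [← e]
    have := hψ.2.2.self_of_nhds
    rwa [hψ.2.1] at this
  obtain ⟨χ, hχ⟩ := H' j k z' hz' z'' hz'' e1
  have h1 : (χ ∘ φ) =ᶠ[𝓝 z] ψ := Tr.unique (Tr.comp hφ hχ) hψ hz''
  have hφd : DifferentiableAt ℝ φ z := hφ.1.differentiableAt (by simp)
  have hχd : DifferentiableAt ℝ χ (φ z) := by
    rw [hφ.2.1]
    exact hχ.1.differentiableAt (by simp)
  have h2 : ∀ v, fderiv ℝ ψ z v = fderiv ℝ χ z' (fderiv ℝ φ z v) := by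
    intro v
    rw [← h1.fderiv_eq, fderiv_comp z hχd hφd, hφ.2.1]
    rfl
  rw [hP i j z hz z' hz' φ hφ, hP' j k z' hz' z'' hz'' χ hχ, h2, h2]

end pull

/-! ### Markings in a family -/

section fam
variable {p n : ℕ} {E Γ : Type} [TopologicalSpace E] [T2Space E] [Group Γ] [Subsingleton Γ]
  [MulAction Γ E] [ContinuousConstSMul Γ E] {𝓕 : Fam p 2 E Γ} {t s r : Cm p}
  {ht : t ∈ 𝓕.T} {hs : s ∈ 𝓕.T} {hr : r ∈ 𝓕.T}

theorem dif_fam (ht : t ∈ 𝓕.T) (hs : s ∈ 𝓕.T) :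
    Dif (𝓕.at t ht) (𝓕.at s hs) (Homeomorph.refl E) := dif_refl (𝓕.compat t s ht hs)

theorem htr_fam (ht : t ∈ 𝓕.T) (hs : s ∈ 𝓕.T) : HasTr (𝓕.at t ht) (𝓕.at s hs) id :=
  hasTr_of_dif (dif_fam ht hs)

/-- the marking `M` of the manifold number `t`, at `s` -/
def IsMv (M : Mark2 (𝓕.at t ht) n) (M' : Mark2 (𝓕.at s hs) n) : Prop :=
  Bm M' = Bm M ∧ ∀ α α', Cl2 (𝓕.at s hs) α → Cl2 (𝓕.at t ht) α' →
    Pull2 (𝓕.at s hs) (𝓕.at t ht) id α α' → M'.cl α = M.cl α'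

theorem exists_mv (pm : PullMarkStmt) (M : Mark2 (𝓕.at t ht) n) (hs : s ∈ 𝓕.T) :
    ∃ M' : Mark2 (𝓕.at s hs) n, IsMv M M' :=
  pm E Γ (𝓕.at s hs) E Γ (𝓕.at t ht) (Homeomorph.refl E) n M (dif_fam hs ht)

theorem pull2_self {S : Sheets 2 E Γ} {α : Fin S.N → Cm 2 → L2 2} (h : Cl2 S α) :
    Pull2 S S id α α := fun i j z hz z' hz' ψ hψ u v =>
  h.change i j z hz z' hz' (mem_univ _) ψ hψ u v

/-- the classes are compatible -/
theorem cl_mv {M : Mark2 (𝓕.at t ht) n} {M' : Mark2 (𝓕.at s hs) n} {M'' : Mark2 (𝓕.at r hr) n}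
    (h' : IsMv M M') (h'' : IsMv M M'') {o : Fin (𝓕.at r hr).N → Cm 2 → L2 2}
    (ho : Cl2 (𝓕.at r hr) o) :
    M'.cl (pb2 (𝓕.at s hs) (𝓕.at r hr) id o) = M''.cl o := by
  have c1 : Cl2 (𝓕.at t ht) (pb2 (𝓕.at t ht) (𝓕.at r hr) id o) :=
    pb2_cl2 continuous_id (htr_fam ht hr) ho
  have c2 : Cl2 (𝓕.at s hs) (pb2 (𝓕.at s hs) (𝓕.at r hr) id o) :=
    pb2_cl2 continuous_id (htr_fam hs hr) ho
  have p1 : Pull2 (𝓕.at r hr) (𝓕.at t ht) id o (pb2 (𝓕.at t ht) (𝓕.at r hr) id o) :=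
    pull_symm (τ := Homeomorph.refl E) (dif_fam ht hr) (pb2_pull ho.toF2On)
  have p2 : Pull2 (𝓕.at s hs) (𝓕.at r hr) id (pb2 (𝓕.at s hs) (𝓕.at r hr) id o) o :=
    pb2_pull ho.toF2On
  rw [h''.2 _ _ ho c1 p1, h'.2 _ _ c2 c1 (pull2_trans (htr_fam hs hr) (htr_fam hr ht) p2 p1)]

theorem const_of {X A : Type} [TopologicalSpace X] {T : Set X} (hT : IsPreconnected T)
    (ho : IsOpen T) {G : X → A} (h : ∀ x ∈ T, ∀ᶠ y in 𝓝 x, G y = G x) {x y : X} (hx : x ∈ T)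
    (hy : y ∈ T) : G y = G x := by
  by_contra hne
  obtain ⟨z, -, hz1, hz2⟩ := hT {z | z ∈ T ∧ G z = G x} {z | z ∈ T ∧ G z ≠ G x}
    (isOpen_iff_mem_nhds.2 fun z hz => by
      filter_upwards [h z hz.1, ho.mem_nhds hz.1] with u a b
      exact ⟨b, a.trans hz.2⟩)
    (isOpen_iff_mem_nhds.2 fun z hz => by
      filter_upwards [h z hz.1, ho.mem_nhds hz.1] with u a b
      exact ⟨b, fun c => hz.2 (a.symm.trans c)⟩)
    (fun z hz => by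
      by_cases hc : G z = G x
      · exact Or.inl ⟨hz, hc⟩
      · exact Or.inr ⟨hz, hc⟩) ⟨x, hx, hx, rfl⟩ ⟨y, hy, hy, hne⟩
  exact hz2.2 hz1.2

/-- **the marking at `t` gives markings everywhere, with the same form and the same Kähler class** -/
theorem exists_mvs (pm : PullMarkStmt) (kc : KConstStmt)
    {W : Fin 𝓕.N → Cm p × Cm 2 → Matrix (Fin p ⊕ Fin 2) (Fin p ⊕ Fin 2) ℂ} (hW : KFam 𝓕 W)
    (hcl : ∀ t (ht : t ∈ 𝓕.T), Cl2 (𝓕.at t ht) fun i z => kf2 (fibW W t i z))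
    (M : Mark2 (𝓕.at t ht) n) :
    ∃ M' : ∀ s (hs : s ∈ 𝓕.T), Mark2 (𝓕.at s hs) n, ∀ s (hs : s ∈ 𝓕.T), IsMv M (M' s hs) ∧
      (M' s hs).cl (fun i z => kf2 (fibW W s i z)) = M.cl fun i z => kf2 (fibW W t i z) := by
  classical
  choose M' hM' using fun s (hs : s ∈ 𝓕.T) => exists_mv pm M hs
  refine ⟨M', fun s hs => ⟨hM' s hs, ?_⟩⟩
  set G : Cm p → Fin n → ℂ := fun s => if hs : s ∈ 𝓕.T then
    (M' s hs).cl (fun i z => kf2 (fibW W s i z)) else 0 with hG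
  have hGs : ∀ s (hs : s ∈ 𝓕.T), G s = (M' s hs).cl (fun i z => kf2 (fibW W s i z)) :=
    fun s hs => dif_pos hs
  have key : ∀ x ∈ 𝓕.T, ∀ᶠ y in 𝓝 x, G y = G x := by
    intro x hx
    have h1 := kc p E Γ 𝓕 W x hx n (M' x hx) (fun y => if hy : y ∈ 𝓕.T then
      pb2 (𝓕.at x hx) (𝓕.at y hy) id (fun i z => kf2 (fibW W y i z)) else fun _ _ => 0) hW
      (fun y hy => by
        rw [dif_pos hy]
        exact ⟨pb2_cl2 continuous_id (htr_fam hx hy) (hcl y hy), pb2_pull (hcl y hy).toF2On⟩)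
    filter_upwards [h1, 𝓕.isOpen.mem_nhds hx] with y a b
    rw [dif_pos b, dif_pos hx, cl_mv (hM' x hx) (hM' y b) (hcl y b),
      cl_mv (hM' x hx) (hM' x hx) (hcl x hx)] at a
    rw [hGs y b, hGs x hx, a]
  rw [← hGs s hs, const_of 𝓕.conn 𝓕.isOpen key ht hs, hGs t ht]
  exact (hM' t ht).2 _ _ (hcl t ht) (hcl t ht) (pull2_self (hcl t ht))

end fam

/-! ### Comparison of two surfaces -/

theorem jac_mulVec {d : ℕ} (θ : Cm d → Cm d) (z v : Cm d) :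
    (H64.TK.jac θ z).mulVec v = fderiv ℂ θ z v := by
  conv_rhs => rw [pi_eq_sum_univ' v, map_sum]
  ext a
  rw [Matrix.mulVec_eq_sum, Finset.sum_apply, Finset.sum_apply]
  refine Finset.sum_congr rfl fun b _ => ?_
  rw [map_smul]
  simp [H64.TK.jac, mul_comm]


section cmp
variable {E Γ E' Γ' : Type} [TopologicalSpace E] [Group Γ] [MulAction Γ E]
  [TopologicalSpace E'] [Group Γ'] [MulAction Γ' E'] [Subsingleton Γ] [Subsingleton Γ']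
  {S : Sheets 2 E Γ} {w : Fin S.N → Cm 2 → Matrix (Fin 2) (Fin 2) ℂ}
  {S' : Sheets 2 E' Γ'} {w' : Fin S'.N → Cm 2 → Matrix (Fin 2) (Fin 2) ℂ} {τ : E ≃ₜ E'}
  {ρ : Γ ≃* Γ'}

theorem cmp_pt (τ : E ≃ₜ E') {i : Fin S.N} {j : Fin S'.N} {u u' : Cm 2} :
    τ (S.σ i u) = S'.σ j u' ↔ S.σ i u = (1 : Γ) • τ.symm (S'.σ j u') := by
  rw [one_smul]
  exact ⟨fun h => by rw [← h, τ.symm_apply_apply], fun h => by rw [h, τ.apply_symm_apply]⟩

theorem cmp_dif (h : Cmp S w S' w' τ ρ) : Dif S S' τ := by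
  intro i j z hz z' hz' e
  obtain ⟨ψ, h1, h2, h3, h4⟩ := holCompat_compat h.hol i j z hz z' hz' 1 ((cmp_pt τ).1 e)
  exact ⟨ψ, ⟨h1, h2, h4.mono fun u hu => (cmp_pt τ).2 hu⟩, h3⟩

theorem kf2_app (w : Matrix (Fin 2) (Fin 2) ℂ) (u v : Cm 2) : kf2 w u v =
    Complex.I / 2 * ∑ j, ∑ k, w j k * (u j * conj (v k) - v j * conj (u k)) := rfl

theorem kf2_pull (J w : Matrix (Fin 2) (Fin 2) ℂ) (u v : Cm 2) :
    kf2 (J.transpose * w * J.map conj) u v = kf2 w (J.mulVec u) (J.mulVec v) := by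
  rw [kf2_app, kf2_app]
  simp only [Fin.sum_univ_two, Matrix.mul_apply, Matrix.transpose_apply, Matrix.map_apply,
    Matrix.mulVec, dotProduct, map_add, map_mul]
  ring

theorem cmp_kf2 (h : Cmp S w S' w' τ ρ) :
    Pull2 S S' τ (fun i z => kf2 (w i z)) (fun i z => kf2 (w' i z)) := by
  intro i j z hz z' hz' ψ hψ u v
  have e : τ (S.σ i z) = S'.σ j z' := by
    have := hψ.2.2.self_of_nhds
    rwa [hψ.2.1] at this
  obtain ⟨θ, h1, h2, -, h4⟩ := h.hol i j z hz z' hz' 1 ((cmp_pt τ).1 e)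
  have h5 : Tr S S' τ i j z z' θ := ⟨(h1.contDiffAt (n := ∞)).restrict_scalars ℝ, h2,
    h4.mono fun u hu => (cmp_pt τ).2 hu⟩
  have h6 := h.met i j z hz z' hz' 1 θ h1 h2 h4
  have h7 : ∀ v, fderiv ℝ ψ z v = (H64.TK.jac θ z).mulVec v := by
    intro v
    rw [← (Tr.unique h5 hψ hz').fderiv_eq, jac_mulVec,
      h1.differentiableAt.fderiv_restrictScalars ℝ]
    rfl
  show kf2 (w i z) u v = kf2 (w' j z') _ _
  rw [h6, kf2_pull, h7, h7]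

/-- `H20One` on the isomorphic manifold -/
theorem h20One_pull {hτ : ∀ γ e, τ (γ • e) = ρ γ • τ e} (h : H20One S') :
    H20One (S'.pull τ ρ hτ) := by
  have key : ∀ s, HolD S' s ↔ HolD (S'.pull τ ρ hτ) s := by
    intro s
    refine ⟨fun H => ⟨H.hol, fun i j z hz z' hz' θ a b c => H.change i j z hz z' hz' θ a b ?_⟩,
      fun H => ⟨H.hol, fun i j z hz z' hz' θ a b c => H.change i j z hz z' hz' θ a b ?_⟩⟩
    · filter_upwards [c] with u hu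
      exact τ.symm.injective hu
    · filter_upwards [c] with u hu
      exact congrArg τ.symm hu
  obtain ⟨s, h1, h2, h3⟩ := h
  exact ⟨s, (key s).1 h1, h2, fun s' hs' => h3 s' ((key s').2 hs')⟩

theorem cmp_h20 (h : Cmp S w S' w' τ ρ) (h' : H20One S') : H20One S :=
  h20One_of h.hol (h20One_pull h')

end cmp

/-! ### The geometry -/

section
variable {p : ℕ} {Z Y : Type} [TopologicalSpace Z] [T2Space Z] [ChartedSpace (Cm (p + 2)) Z]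
  [IsManifold 𝓘(ℂ, Cm (p + 2)) ω Z] [TopologicalSpace Y] [T2Space Y] [ChartedSpace (Cm p) Y]
  [IsManifold 𝓘(ℂ, Cm p) ω Y]

/-- the form of a Kähler metric is closed (helper624, helper702) -/
def KahClStmt : Prop :=
  ∀ (E Γ : Type) [TopologicalSpace E] [Group Γ] [Subsingleton Γ] [MulAction Γ E]
    [ContinuousConstSMul Γ E] (S : Sheets 2 E Γ)
    (w : Fin S.N → Cm 2 → Matrix (Fin 2) (Fin 2) ℂ), Kah S w → Cl2 S fun i z => kf2 (w i z)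

/-- holomorphic 2-forms are closed (helper624, helper702) -/
def HolClStmt : Prop :=
  ∀ (E Γ : Type) [TopologicalSpace E] [Group Γ] [Subsingleton Γ] [MulAction Γ E]
    [ContinuousConstSMul Γ E] (S : Sheets 2 E Γ)
    (s : Fin S.N → Cm 2 → ℂ), HolD S s → Cl2 S fun i z => sf2 (s i z)

/-- some model at `y` has a marking with form `B` and Kähler class `v` -/
def PPK (f : Z → Y) (w : Chart (p + 2) Z → Cm (p + 2) → Matrix (Fin (p + 2)) (Fin (p + 2)) ℂ)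
    (N : ℕ) {n : ℕ} (B : Matrix (Fin n) (Fin n) ℝ) (v : Fin n → ℝ) (y : Y) : Prop :=
  ∃ (E Γ : Type) (_ : TopologicalSpace E) (_ : T2Space E) (_ : SimplyConnectedSpace E)
    (_ : Group Γ) (_ : MulAction Γ E) (_ : ContinuousConstSMul Γ E)
    (_ : (⊥ : Subgroup Γ).FiniteIndex) (𝓕 : Fam p 2 E Γ)
    (q : Cm p → E → Z) (χ : OpenPartialHomeomorph Y (Cm p)) (t : Cm p) (ht : t ∈ 𝓕.T)
    (W : Fin 𝓕.N → Cm p × Cm 2 → Matrix (Fin p ⊕ Fin 2) (Fin p ⊕ Fin 2) ℂ)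
    (M : Mark2 (sub (𝓕.at t ht) (⊥ : Subgroup Γ)) n), Model (n := p + 2) f 𝓕 χ q ∧
      χ.symm t = y ∧ IsPull w 𝓕 q W ∧ KFam 𝓕 W ∧ Nat.card Γ = N ∧
      H20One (sub (𝓕.at t ht) (⊥ : Subgroup Γ)) ∧ Bm M = B ∧
      kv M (fW (⊥ : Subgroup Γ) W t) = v

/-- a model at `t` with such a marking -/
def HasK {E Γ : Type} [TopologicalSpace E] [Group Γ] [MulAction Γ E] [ContinuousConstSMul Γ E]
    (𝓕 : Fam p 2 E Γ) (W : Fin 𝓕.N → Cm p × Cm 2 → Matrix (Fin p ⊕ Fin 2) (Fin p ⊕ Fin 2) ℂ)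
    (N : ℕ) {n : ℕ} (B : Matrix (Fin n) (Fin n) ℝ) (v : Fin n → ℝ) (t : Cm p) (ht : t ∈ 𝓕.T) :
    Prop :=
  Nat.card Γ = N ∧ ∃ (_ : (⊥ : Subgroup Γ).FiniteIndex),
    H20One (sub (𝓕.at t ht) (⊥ : Subgroup Γ)) ∧
    ∃ M : Mark2 (sub (𝓕.at t ht) (⊥ : Subgroup Γ)) n, Bm M = B ∧
      kv M (fW (⊥ : Subgroup Γ) W t) = v

/-- then all the models at `y` have such a marking -/
theorem PPK.all (I : Inputs) (pm : PullMarkStmt) (kcl : KahClStmt) {f : Z → Y}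
    (hf : ContMDiff 𝓘(ℂ, Cm (p + 2)) 𝓘(ℂ, Cm p) ω f)
    {w : Chart (p + 2) Z → Cm (p + 2) → Matrix (Fin (p + 2)) (Fin (p + 2)) ℂ} (hw : IsKahler w)
    {N n : ℕ} {B : Matrix (Fin n) (Fin n) ℝ} {v : Fin n → ℝ} {y : Y} (h : PPK f w N B v y)
    {E' Γ' : Type} [TopologicalSpace E'] [T2Space E'] [SimplyConnectedSpace E']
    [Group Γ'] [MulAction Γ' E'] [ContinuousConstSMul Γ' E'] {𝓕' : Fam p 2 E' Γ'}
    {q' : Cm p → E' → Z} {χ' : OpenPartialHomeomorph Y (Cm p)}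
    (M' : Model (n := p + 2) f 𝓕' χ' q')
    {W' : Fin 𝓕'.N → Cm p × Cm 2 → Matrix (Fin p ⊕ Fin 2) (Fin p ⊕ Fin 2) ℂ}
    (hW' : IsPull w 𝓕' q' W') (hK' : KFam 𝓕' W')
    {t' : Cm p} (ht' : t' ∈ 𝓕'.T) (hy : χ'.symm t' = y) : HasK 𝓕' W' N B v t' ht' := by
  obtain ⟨E, Γ, _, _, _, _, _, _, _, 𝓕, q, χ, t, ht, W, M, hM, hy', hW, hK, hc, h20, hB, hv⟩ := h
  obtain ⟨τ, ρ, hτ, -, hcc, hmm⟩ := compareK I two_pos hf hw M' hM hW' hW ht' ht (by rw [hy, hy'])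
  have hcard : Nat.card Γ' = Nat.card Γ := Nat.card_congr ρ.toEquiv
  have hfin : (⊥ : Subgroup Γ').FiniteIndex := ⟨by
    rw [Subgroup.index_bot, hcard, ← Subgroup.index_bot]
    exact Subgroup.FiniteIndex.index_ne_zero⟩
  have h1 : Cmp (𝓕'.at t' ht') (fibW W' t') (𝓕.at t ht) (fibW W t) τ ρ := ⟨hτ, hcc, hmm⟩
  have h2 : Cmp (sub (𝓕'.at t' ht') (⊥ : Subgroup Γ')) (fW (⊥ : Subgroup Γ') W' t')
      (sub (𝓕.at t ht) (⊥ : Subgroup Γ)) (fW (⊥ : Subgroup Γ) W t) τ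
      (res ρ fun γ => by simp) := h1.sub (K := (⊥ : Subgroup Γ')) (K' := (⊥ : Subgroup Γ))
        fun γ => by simp
  refine ⟨by rw [hcard, hc], hfin, cmp_h20 h2 h20, ?_⟩
  obtain ⟨M₁, hM₁, hcl⟩ := pm E' (⊥ : Subgroup Γ') (sub (𝓕'.at t' ht') (⊥ : Subgroup Γ')) E
    (⊥ : Subgroup Γ) (sub (𝓕.at t ht) (⊥ : Subgroup Γ)) τ n M (cmp_dif h2)
  refine ⟨M₁, by rw [hM₁, hB], ?_⟩
  rw [← hv]
  funext k
  unfold kv
  rw [hcl _ _ (kcl _ _ _ _ (kah_fW _ hK' ht')) (kcl _ _ _ _ (kah_fW _ hK ht)) (cmp_kf2 h2)]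

/-- moving in a family -/
theorem HasK.move (pm : PullMarkStmt) (kc : KConstStmt) (h20 : H20ConstStmt) (kcl : KahClStmt)
    {E Γ : Type} [TopologicalSpace E] [T2Space E] [SimplyConnectedSpace E]
    [Group Γ] [MulAction Γ E] [ContinuousConstSMul Γ E] {𝓕 : Fam p 2 E Γ}
    {W : Fin 𝓕.N → Cm p × Cm 2 → Matrix (Fin p ⊕ Fin 2) (Fin p ⊕ Fin 2) ℂ} (hK : KFam 𝓕 W)
    {N n : ℕ} {B : Matrix (Fin n) (Fin n) ℝ} {v : Fin n → ℝ} {t : Cm p} {ht : t ∈ 𝓕.T}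
    (h : HasK 𝓕 W N B v t ht) : ∃ (_ : (⊥ : Subgroup Γ).FiniteIndex)
      (M : Mark2 ((fsub 𝓕 (⊥ : Subgroup Γ)).at t ht) n)
      (M' : ∀ s (hs : s ∈ (fsub 𝓕 (⊥ : Subgroup Γ)).T),
        Mark2 ((fsub 𝓕 (⊥ : Subgroup Γ)).at s hs) n), Nat.card Γ = N ∧
      ∀ s (hs : s ∈ 𝓕.T), IsMv M (M' s hs) ∧ Bm (M' s hs) = B ∧
        kv (M' s hs) (fW (⊥ : Subgroup Γ) W s) = v ∧
        H20One ((fsub 𝓕 (⊥ : Subgroup Γ)).at s hs) := by
  obtain ⟨hc, hfin, h1, M, hB, hv⟩ := h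
  have hKs := kfam_sub 𝓕 (⊥ : Subgroup Γ) hK
  obtain ⟨M', hM'⟩ := exists_mvs (𝓕 := fsub 𝓕 (⊥ : Subgroup Γ)) (t := t) (ht := ht) pm kc hKs
    (fun s hs => kcl _ _ _ _ (kah_fW _ hK hs)) M
  refine ⟨hfin, M, M', hc, fun s hs => ⟨(hM' s hs).1, (hM' s hs).1.1.trans hB, ?_,
    h20 p E (⊥ : Subgroup Γ) (fsub 𝓕 (⊥ : Subgroup Γ)) _ hKs t ht s hs h1⟩⟩
  rw [← hv]
  funext k
  have h2 := congrFun (hM' s hs).2 k
  unfold kv
  exact congrArg Complex.re h2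

end

end Vale.Agent.P281.H399.TS
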