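import Vale.Agent.P281.H864.TS.Pull
import Vale.Agent.P281.H864.K.Compat

/-!
# P281, project T-S, block G1 (helper399), 1: holomorphic forms of top degree on two manifolds with
the same complex structure
-/

open Set Filter Metric Vale.Agent.P272.K
open scoped Topology ContDiff ComplexConjugate ComplexOrder

set_option linter.unusedSectionVars false

noncomputable section

namespace Vale.Agent.P281.H399.TS

open Vale.Agent.P281.H64.TK Vale.Agent.P281.H64.TK.TS Vale.Agent.P281.H864.TS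
open Vale.Agent.P281.H864.K (holCompat_symm holCompat_compat jac_comp jac_id jac_congr)

variable {d : ℕ} {E Γ : Type} [TopologicalSpace E] [Group Γ] [MulAction Γ E]
  {S S' S'' : Sheets d E Γ}

/-- a holomorphic transition map from `S` to `S'` -/
structure HTr (S S' : Sheets d E Γ) (i : Fin S.N) (j : Fin S'.N) (z z' : Cm d)
    (θ : Cm d → Cm d) : Prop where
  an : AnalyticAt ℂ θ z
  eq : θ z = z'
  ev : ∀ᶠ u in 𝓝 z, S.σ i u = S'.σ j (θ u)

variable {i : Fin S.N} {j j' : Fin S'.N} {k : Fin S''.N} {z z' z'' : Cm d} {θ χ : Cm d → Cm d}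

theorem HTr.tr (h : HTr S S' i j z z' θ) : Tr S S' id i j z z' θ :=
  ⟨(h.an.contDiffAt (n := ∞)).restrict_scalars ℝ, h.eq, h.ev⟩

theorem HTr.pt (h : HTr S S' i j z z' θ) : S.σ i z = S'.σ j z' := by
  have := h.ev.self_of_nhds
  rwa [h.eq] at this

theorem HTr.comp (h : HTr S S' i j z z' θ) (h' : HTr S' S'' j k z' z'' χ) :
    HTr S S'' i k z z'' fun u => χ (θ u) where
  an := AnalyticAt.fun_comp (f := θ) (by rw [h.eq]; exact h'.an) h.an
  eq := by rw [h.eq, h'.eq]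
  ev := by
    have h1 : ∀ᶠ u in 𝓝 z, S'.σ j (θ u) = S''.σ k (χ (θ u)) :=
      h.an.continuousAt.eventually (by rw [h.eq]; exact h'.ev)
    filter_upwards [h.ev, h1] with u a b
    rw [a, b]

theorem HTr.uniq (h : HTr S S' i j z z' θ) (h' : HTr S S' i j z z' χ)
    (hz' : z' ∈ ball (0 : Cm d) 3) : θ =ᶠ[𝓝 z] χ := Tr.unique h.tr h'.tr hz'

theorem HTr.det_comp (h : HTr S S' i j z z' θ) (h' : HTr S' S'' j k z' z'' χ) :
    (jac (fun u => χ (θ u)) z).det = (jac χ z').det * (jac θ z).det := by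
  rw [jac_comp h.eq h'.an.differentiableAt h.an.differentiableAt, Matrix.det_mul]

theorem htr_refl (S : Sheets d E Γ) (i : Fin S.N) (z : Cm d) : HTr S S i i z z fun u => u :=
  ⟨analyticAt_id, rfl, Eventually.of_forall fun _ => rfl⟩

theorem HTr.near (h : HTr S S' i j z z' θ) (hz : z ∈ ball (0 : Cm d) 3)
    (hz' : z' ∈ ball (0 : Cm d) 3) : ∀ᶠ u in 𝓝 z, u ∈ ball (0 : Cm d) 3 ∧
      θ u ∈ ball (0 : Cm d) 3 ∧ HTr S S' i j u (θ u) θ := by
  have e1 : ∀ᶠ u in 𝓝 z, θ u ∈ ball (0 : Cm d) 3 :=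
    h.an.continuousAt (isOpen_ball.mem_nhds (by rw [h.eq]; exact hz'))
  filter_upwards [isOpen_ball.mem_nhds hz, e1, h.an.eventually_analyticAt,
    h.ev.eventually_nhds] with u a b c e
  exact ⟨a, b, c, rfl, e⟩

theorem exists_htr (h : HolCompat S S') (i : Fin S.N) (j : Fin S'.N)
    (hz : z ∈ ball (0 : Cm d) 3) (hz' : z' ∈ ball (0 : Cm d) 3) (e : S.σ i z = S'.σ j z') :
    ∃ θ, HTr S S' i j z z' θ := by
  obtain ⟨θ, h1, h2, -, h4⟩ := h i j z hz z' hz' 1 (by rw [one_smul]; exact e)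
  exact ⟨θ, h1, h2, by simpa using h4⟩

theorem exists_htr_self (S : Sheets d E Γ) (i j : Fin S.N)
    (hz : z ∈ ball (0 : Cm d) 3) (hz' : z' ∈ ball (0 : Cm d) 3) (e : S.σ i z = S.σ j z') :
    ∃ θ, HTr S S i j z z' θ := by
  obtain ⟨θ, h1, h2, h4⟩ := S.hol i j z hz z' hz' 1 (by rw [one_smul]; exact e)
  exact ⟨θ, h1, h2, by simpa using h4⟩

variable [Subsingleton Γ]

theorem exists_htr' (h : HolCompat S S') (i : Fin S.N) (hz : z ∈ ball (0 : Cm d) 3) :
    ∃ j, ∃ z' ∈ ball (0 : Cm d) 3, ∃ θ, HTr S S' i j z z' θ := by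
  obtain ⟨j, z', h1, h2⟩ := cov S' (S.σ i z)
  obtain ⟨θ, hθ⟩ := exists_htr h i j hz h1 h2.symm
  exact ⟨j, z', h1, θ, hθ⟩

theorem HolD.ch {s : Fin S.N → Cm d → ℂ} (hs : HolD S s) {i j : Fin S.N}
    (hz : z ∈ ball (0 : Cm d) 3) (hz' : z' ∈ ball (0 : Cm d) 3) (h : HTr S S i j z z' θ) :
    s i z = s j z' * (jac θ z).det := hs.change i j z hz z' hz' θ h.an h.eq h.ev

/-- the data of a transition map -/
def Hd (S S' : Sheets d E Γ) (i : Fin S.N) (z : Cm d)
    (p : Fin S'.N × Cm d × (Cm d → Cm d)) : Prop :=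
  p.2.1 ∈ ball (0 : Cm d) 3 ∧ HTr S S' i p.1 z p.2.1 p.2.2

open Classical in
/-- the form `s` of `S'` on `S` -/
def pbD (S S' : Sheets d E Γ) (s : Fin S'.N → Cm d → ℂ) (i : Fin S.N) (z : Cm d) : ℂ :=
  if h : ∃ p, Hd S S' i z p then s h.choose.1 h.choose.2.1 * (jac h.choose.2.2 z).det else 0

theorem pbD_eq {s : Fin S'.N → Cm d → ℂ} (hs : HolD S' s) (hz' : z' ∈ ball (0 : Cm d) 3)
    (h : HTr S S' i j z z' θ) : pbD S S' s i z = s j z' * (jac θ z).det := by
  have hex : ∃ p, Hd S S' i z p := ⟨(j, z', θ), hz', h⟩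
  rw [pbD, dif_pos hex]
  obtain ⟨h1, h2⟩ := hex.choose_spec
  set q := hex.choose with hq
  obtain ⟨χ, hχ⟩ := exists_htr_self S' q.1 j h1 hz' (by rw [← h2.pt, h.pt])
  rw [HolD.ch hs h1 hz' hχ, mul_assoc, ← h2.det_comp hχ, jac_congr ((h2.comp hχ).uniq h hz')]

theorem pbD_near {s : Fin S'.N → Cm d → ℂ} (hs : HolD S' s) (hz : z ∈ ball (0 : Cm d) 3)
    (hz' : z' ∈ ball (0 : Cm d) 3) (h : HTr S S' i j z z' θ) :
    pbD S S' s i =ᶠ[𝓝 z] fun u => s j (θ u) * (jac θ u).det := by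
  filter_upwards [h.near hz hz'] with u hu
  exact pbD_eq hs hu.2.1 hu.2.2

theorem differentiableAt_det (h : AnalyticAt ℂ θ z) :
    DifferentiableAt ℂ (fun u => (jac θ u).det) z := by
  have h1 : ∀ l k, DifferentiableAt ℂ (fun u => jac θ u l k) z := by
    intro l k
    have h2 : DifferentiableAt ℂ (fun u => fderiv ℂ θ u (Pi.single k 1)) z :=
      h.fderiv.differentiableAt.clm_apply (differentiableAt_const _)
    exact (differentiableAt_pi.1 h2) l
  simp only [Matrix.det_apply]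
  refine DifferentiableAt.fun_sum fun σ _ => ?_
  refine DifferentiableAt.const_smul ?_ _
  exact (HasFDerivAt.finsetProd (g := fun l u => jac θ u (σ l) l) (u := Finset.univ)
    fun l _ => (h1 (σ l) l).hasFDerivAt).differentiableAt

theorem pbD_hol (hc : HolCompat S S') {s : Fin S'.N → Cm d → ℂ} (hs : HolD S' s) :
    HolD S (pbD S S' s) where
  hol i := by
    intro z hz
    obtain ⟨j, z', hz', θ, h⟩ := exists_htr' hc i hz
    refine (DifferentiableAt.congr_of_eventuallyEq ?_ (pbD_near hs hz hz' h)).differentiableWithinAt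
    refine DifferentiableAt.mul ?_ (differentiableAt_det h.an)
    have h1 : DifferentiableAt ℂ (s j) (θ z) := by
      rw [h.eq]
      exact (hs.hol j).differentiableAt (isOpen_ball.mem_nhds hz')
    exact h1.comp z h.an.differentiableAt
  change i j z hz z' hz' θ h1 h2 h3 := by
    have h : HTr S S i j z z' θ := ⟨h1, h2, h3⟩
    obtain ⟨k, z'', hz'', χ, hχ⟩ := exists_htr' hc j hz'
    rw [pbD_eq hs hz'' (h.comp hχ), pbD_eq hs hz'' hχ, h.det_comp hχ, mul_assoc]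

theorem pbD_pbD (hc : HolCompat S S') {s : Fin S.N → Cm d → ℂ} (hs : HolD S s) {i : Fin S.N}
    (hz : z ∈ ball (0 : Cm d) 3) : pbD S S' (pbD S' S s) i z = s i z := by
  obtain ⟨j, z', hz', θ, h⟩ := exists_htr' hc i hz
  obtain ⟨χ, hχ⟩ := exists_htr (holCompat_symm hc) j i hz' hz h.pt.symm
  rw [pbD_eq (pbD_hol (holCompat_symm hc) hs) hz' h, pbD_eq hs hz hχ, mul_assoc, ← h.det_comp hχ,
    jac_congr ((h.comp hχ).uniq (htr_refl S i z) hz), jac_id, Matrix.det_one, mul_one]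

/-- **`h^{d,0} = 1` depends only on the complex structure** -/
theorem h20One_of (hc : HolCompat S S') (h : H20One S') : H20One S := by
  obtain ⟨s, hs, ⟨j, z', hz', hne⟩, hu⟩ := h
  refine ⟨pbD S S' s, pbD_hol hc hs, ?_, fun t ht => ?_⟩
  · obtain ⟨i, z, hz, χ, hχ⟩ := exists_htr' (holCompat_symm hc) j hz'
    refine ⟨i, z, hz, fun h0 => hne ?_⟩
    rw [← pbD_pbD (holCompat_symm hc) hs hz', pbD_eq (pbD_hol hc hs) hz hχ, h0, zero_mul]
  · obtain ⟨c, hc'⟩ := hu (pbD S' S t) (pbD_hol (holCompat_symm hc) ht)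
    refine ⟨c, fun i z hz => ?_⟩
    obtain ⟨j, z', hz', θ, hθ⟩ := exists_htr' hc i hz
    rw [← pbD_pbD hc ht hz, pbD_eq (pbD_hol (holCompat_symm hc) ht) hz' hθ,
      pbD_eq hs hz' hθ, hc' j z' hz', mul_assoc]

/-- a diffeomorphism: the same smooth structure -/
theorem dif_refl (h : Compat S S') : Dif S S' (Homeomorph.refl E) := by
  intro i j z hz z' hz' e
  have e' : S.σ i z = S'.σ j z' := e
  obtain ⟨ψ, h1, h2, h3, h4⟩ := h i j z hz z' hz' 1 (by rw [one_smul]; exact e')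
  exact ⟨ψ, ⟨h1, h2, by simpa using h4⟩, h3⟩

end Vale.Agent.P281.H399.TS
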